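import Vale.Agent.P042.Bdl.B1
namespace Vale.Agent.Results.P042.LowerSquares

open Vale.Agent.P042

theorem result : ∃ c : ℝ, 0 < c ∧ ∀ N : ℕ, 1 ≤ N →
    c * (N : ℝ) ^ (0.7558 : ℝ) ≤ (rMax (Polynomial.X ^ 2) N : ℝ) :=
  lower_main

end Vale.Agent.Results.P042.LowerSquares
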