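import Vale.Agent.P042.MathlibUsed
import Vale.Agent.P042.Defs
import Vale.Agent.P042.Bdl.B1
set_option autoImplicit false

namespace Vale.Agent.Results.P042.SqrtSaving

open Polynomial

/-- `r_h(N) ≤ C N exp(-c √(log N))` for every intersective polynomial `h` of degree `k`, where
`c` depends only on `k`. -/
theorem result (k : ℕ) (hk : 2 ≤ k) : ∃ c : ℝ, 0 < c ∧ ∀ h : ℤ[X], h.natDegree = k →
    0 < h.leadingCoeff → Vale.Agent.P042.Intersective h →
    ∃ C : ℝ, 0 < C ∧ ∀ N : ℕ, 1 ≤ N →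
      (Vale.Agent.P042.rMax h N : ℝ) ≤ C * N * Real.exp (-(c * Real.sqrt (Real.log N))) :=
  Vale.Agent.P042.sqrt_final k (by omega)

end Vale.Agent.Results.P042.SqrtSaving
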